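import Mathlib
import Vale.Agent.P226.MaxBound

open MeasureTheory Set ProbabilityTheory

namespace Vale.Agent.Results.P226.AntipodalPartitions

/-- The standard Gaussian probability measure `γ_d` on `ℝ^d`. -/
noncomputable abbrev gam (d : ℕ) : Measure (EuclideanSpace ℝ (Fin d)) :=
  stdGaussian (EuclideanSpace ℝ (Fin d))

/-- The (unnormalized) Gaussian first moment `z(A) = ∫_A x dγ_d(x)`. -/
noncomputable def firstMoment {d : ℕ} (A : Set (EuclideanSpace ℝ (Fin d))) :
    EuclideanSpace ℝ (Fin d) :=
  ∫ x in A, x ∂(gam d)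

/-- `A_1, …, A_k` is a measurable partition of `ℝ^d`, up to `γ_d`-null sets. -/
structure IsGaussianPartition {d k : ℕ} (A : Fin k → Set (EuclideanSpace ℝ (Fin d))) : Prop where
  measurable : ∀ i, MeasurableSet (A i)
  disjoint : ∀ i j, i ≠ j → gam d (A i ∩ A j) = 0
  cover : gam d (⋃ i, A i)ᶜ = 0

lemma integrable_id_gam (d : ℕ) : Integrable (fun x : EuclideanSpace ℝ (Fin d) => x) (gam d) :=
  IsGaussian.integrable_id

lemma firstMoment_neg {d : ℕ} {A : Set (EuclideanSpace ℝ (Fin d))} (_hA : MeasurableSet A) :
    firstMoment (-A) = - firstMoment A := by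
  have hmp : MeasurePreserving (fun x : EuclideanSpace ℝ (Fin d) => -x) (gam d) (gam d) :=
    ⟨measurable_neg, stdGaussian_map (LinearIsometryEquiv.neg ℝ)⟩
  have hemb : MeasurableEmbedding (fun x : EuclideanSpace ℝ (Fin d) => -x) :=
    (Homeomorph.neg _).measurableEmbedding
  have h := hmp.setIntegral_preimage_emb hemb (fun x => -x) (A)
  simp only [neg_neg] at h
  unfold firstMoment
  have e : (-A : Set (EuclideanSpace ℝ (Fin d))) = (fun x => -x) ⁻¹' A := rfl
  rw [e, h, integral_neg]

/-- **Main theorem.** -/
theorem main {d k : ℕ} {A : Fin k → Set (EuclideanSpace ℝ (Fin d))}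
    (hA : IsGaussianPartition A) (τ : Equiv.Perm (Fin k))
    (h : ∀ i, firstMoment (A (τ i)) = - firstMoment (A i)) :
    ∑ i, ‖firstMoment (A i)‖ ^ 2 ≤ 1 / Real.pi := by
  classical
  have hπ := Real.pi_pos
  set w : Fin k → EuclideanSpace ℝ (Fin d) := fun i => firstMoment (A i) with hw
  set S : ℝ := ∑ i, ‖w i‖ ^ 2 with hS
  have hS0 : 0 ≤ S := Finset.sum_nonneg (fun i _ => by positivity)
  -- a sign on nonzero vectors
  let pos : EuclideanSpace ℝ (Fin d) → Prop := fun v => (0 : Lex (Fin d → ℝ)) < toLex v.ofLp
  have hpos_neg : ∀ v, pos v → ¬ pos (-v) := by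
    intro v hv hv'
    have h1 : toLex (-v).ofLp = - toLex v.ofLp := rfl
    simp only [pos, h1] at hv hv'
    have := neg_pos.mp hv'
    exact lt_asymm hv this
  have hpos_or : ∀ v, v ≠ 0 → pos v ∨ pos (-v) := by
    intro v hv
    have h1 : toLex (-v).ofLp = - toLex v.ofLp := rfl
    have hne : toLex v.ofLp ≠ 0 := by
      intro h0
      apply hv
      have h2 : v.ofLp = 0 := h0
      ext i
      exact congrFun h2 i
    rcases lt_or_gt_of_ne hne with h2 | h2
    · right
      show (0 : Lex (Fin d → ℝ)) < toLex (-v).ofLp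
      rw [h1]; exact neg_pos.mpr h2
    · left; exact h2
  have hpos0 : ¬ pos 0 := by
    intro h0
    exact lt_irrefl _ (show (0 : Lex (Fin d → ℝ)) < 0 from h0)
  set R : Finset (Fin k) := Finset.univ.filter (fun i => pos (w i)) with hR
  -- half of the sum
  have hhalf : S = 2 * ∑ i ∈ R, ‖w i‖ ^ 2 := by
    have h1 : ∑ i ∈ R, ‖w i‖^2 = ∑ i, if pos (w i) then ‖w i‖^2 else 0 := by
      rw [hR, Finset.sum_filter]
    have h2 : ∑ i, (if pos (w i) then ‖w i‖^2 else 0)
        = ∑ i, (if pos (-(w i)) then ‖w i‖^2 else 0) := by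
      rw [← Equiv.sum_comp τ]
      apply Finset.sum_congr rfl
      intro i _
      show (if pos (w (τ i)) then ‖w (τ i)‖^2 else 0) = _
      have : w (τ i) = - w i := h i
      rw [this, norm_neg]
    have h3 : S = ∑ i, ((if pos (w i) then ‖w i‖^2 else 0) + (if pos (-(w i)) then ‖w i‖^2 else 0)) := by
      rw [hS]
      apply Finset.sum_congr rfl
      intro i _
      by_cases h0 : w i = 0
      · rw [h0]; simp
      · rcases hpos_or _ h0 with h4 | h4
        · rw [if_pos h4, if_neg (hpos_neg _ h4), add_zero]
        · have h5 : ¬ pos (w i) := by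
            intro h6
            exact hpos_neg _ h6 h4
          rw [if_neg h5, if_pos h4, zero_add]
    rw [h3, Finset.sum_add_distrib, ← h2, h1]; ring
  set l : List (EuclideanSpace ℝ (Fin d)) := R.toList.map w with hl
  have hlsum : (l.map (fun v => ‖v‖^2)).sum = S / 2 := by
    rw [hl, List.map_map]
    have : (R.toList.map ((fun v : EuclideanSpace ℝ (Fin d) => ‖v‖^2) ∘ w)).sum
        = ∑ i ∈ R, ‖w i‖^2 := by
      rw [← Finset.sum_map_toList]; rfl
    rw [this, hhalf]; ring
  set M : EuclideanSpace ℝ (Fin d) → ℝ := fun x => Vale.Agent.P226.MM l 0 x with hM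
  have hM0 : ∀ x, 0 ≤ M x := fun x => Vale.Agent.P226.le_MM l 0 x
  have hMc : Continuous M := Vale.Agent.P226.MM_continuous l 0
  have hMl := Vale.Agent.P226.lintegral_MM_zero_le l
  rw [hlsum] at hMl
  have hMint : Integrable M (gam d) := by
    rw [← lintegral_ofReal_ne_top_iff_integrable hMc.aestronglyMeasurable
      (Filter.Eventually.of_forall hM0)]
    exact ne_top_of_le_ne_top ENNReal.ofReal_ne_top hMl
  have hMle : ∫ x, M x ∂(gam d) ≤ Real.sqrt (2/Real.pi) * Real.sqrt (S/2) := by
    rw [integral_eq_lintegral_of_nonneg_ae (Filter.Eventually.of_forall hM0)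
      hMc.aestronglyMeasurable]
    exact ENNReal.toReal_le_of_le_ofReal (by positivity) hMl
  -- pointwise bound
  have hpt : ∀ i x, inner ℝ x (w i) ≤ M x := by
    intro i x
    by_cases h0 : w i = 0
    · rw [h0, inner_zero_right]; exact hM0 x
    · rcases hpos_or _ h0 with h4 | h4
      · have hmem : w i ∈ l := by
          rw [hl, List.mem_map]
          exact ⟨i, by rw [Finset.mem_toList, hR, Finset.mem_filter]; exact ⟨Finset.mem_univ _, h4⟩, rfl⟩
        exact (le_abs_self _).trans (Vale.Agent.P226.inner_le_MM hmem 0 x)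
      · have hmem : w (τ i) ∈ l := by
          rw [hl, List.mem_map]
          refine ⟨τ i, ?_, rfl⟩
          rw [Finset.mem_toList, hR, Finset.mem_filter]
          refine ⟨Finset.mem_univ _, ?_⟩
          have : w (τ i) = - w i := h i
          rw [this]; exact h4
        have h5 := Vale.Agent.P226.inner_le_MM hmem 0 x
        have h6 : w (τ i) = - w i := h i
        rw [h6, inner_neg_right, abs_neg] at h5
        exact (le_abs_self _).trans h5
  -- the sum of the squared moments as an integral
  have hsum : S ≤ ∫ x, M x ∂(gam d) := by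
    have h1 : ∀ i, ‖w i‖^2 ≤ ∫ x in A i, M x ∂(gam d) := by
      intro i
      have e1 : ‖w i‖^2 = ∫ x in A i, inner ℝ x (w i) ∂(gam d) := by
        rw [← real_inner_self_eq_norm_sq]
        have hint : Integrable (fun x : EuclideanSpace ℝ (Fin d) => x) ((gam d).restrict (A i)) :=
          (integrable_id_gam d).integrableOn
        have h7 : ∫ x in A i, inner ℝ (w i) x ∂(gam d) = inner ℝ (w i) (∫ x in A i, x ∂(gam d)) :=
          integral_inner hint (w i)
        have h8 : ∫ x in A i, inner ℝ x (w i) ∂(gam d) = ∫ x in A i, inner ℝ (w i) x ∂(gam d) := by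
          congr 1; ext x; exact real_inner_comm _ _
        rw [h8, h7]
        rfl
      rw [e1]
      apply setIntegral_mono
      · exact (Integrable.inner_const (𝕜 := ℝ) (integrable_id_gam d) (w i)).integrableOn
      · exact hMint.integrableOn
      · intro x; exact hpt i x
    have h2 : ∑ i, ∫ x in A i, M x ∂(gam d) ≤ ∫ x, M x ∂(gam d) := by
      have e2 : ∀ i, ∫ x in A i, M x ∂(gam d) = ∫ x, (A i).indicator M x ∂(gam d) := fun i =>
        (integral_indicator (hA.measurable i)).symm
      simp only [e2]
      rw [← integral_finsetSum _ (fun i _ => hMint.indicator (hA.measurable i))]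
      apply integral_mono_ae
      · exact integrable_finsetSum _ (fun i _ => hMint.indicator (hA.measurable i))
      · exact hMint
      · have hdis : ∀ᵐ x ∂(gam d), ∀ i j, i ≠ j → ¬ (x ∈ A i ∧ x ∈ A j) := by
          rw [ae_all_iff]; intro i
          rw [ae_all_iff]; intro j
          by_cases hij : i = j
          · exact Filter.Eventually.of_forall (fun x hne => absurd hij hne)
          · have := hA.disjoint i j hij
            rw [measure_eq_zero_iff_ae_notMem] at this
            filter_upwards [this] with x hx _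
            exact hx
        filter_upwards [hdis] with x hx
        by_cases hex : ∃ i, x ∈ A i
        · obtain ⟨i, hi⟩ := hex
          rw [Finset.sum_eq_single i]
          · rw [indicator_of_mem hi]
          · intro j _ hj
            rw [indicator_of_notMem]
            intro hxj
            exact hx j i hj ⟨hxj, hi⟩
          · intro hni; exact absurd (Finset.mem_univ i) hni
        · push Not at hex
          rw [Finset.sum_eq_zero (fun i _ => indicator_of_notMem (hex i) M)]
          exact hM0 x
    calc S = ∑ i, ‖w i‖^2 := rfl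
      _ ≤ ∑ i, ∫ x in A i, M x ∂(gam d) := Finset.sum_le_sum (fun i _ => h1 i)
      _ ≤ _ := h2
  have hfin : S ≤ Real.sqrt (2/Real.pi) * Real.sqrt (S/2) := hsum.trans hMle
  have hsq : S^2 ≤ S / Real.pi := by
    have h1 : S^2 ≤ (Real.sqrt (2/Real.pi) * Real.sqrt (S/2))^2 := pow_le_pow_left₀ hS0 hfin 2
    rw [mul_pow, Real.sq_sqrt (by positivity), Real.sq_sqrt (by positivity)] at h1
    calc S^2 ≤ 2/Real.pi * (S/2) := h1
      _ = S / Real.pi := by field_simp
  show S ≤ 1 / Real.pi
  rcases eq_or_lt_of_le hS0 with h0 | h0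
  · rw [← h0]; positivity
  · have h1 : S * S ≤ (1/Real.pi) * S := by
      calc S * S = S^2 := by ring
        _ ≤ S / Real.pi := hsq
        _ = _ := by ring
    exact le_of_mul_le_mul_right h1 h0

/-- The propeller inequality, with the smaller constant `1/π < 9/(8π)`, for every measurable
partition of `ℝ^d` (any `d`, any number `k` of cells) which is invariant under `x ↦ -x` up to
relabelling of the cells and null sets, and more generally for every measurable partition whose
family of Gaussian first moments is invariant under negation up to relabelling. -/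
theorem result (d k : ℕ) (A : Fin k → Set (EuclideanSpace ℝ (Fin d)))
    (hA : IsGaussianPartition A) (τ : Equiv.Perm (Fin k))
    (h : (∀ i, A (τ i) =ᵐ[gam d] (-(A i) : Set (EuclideanSpace ℝ (Fin d)))) ∨
      (∀ i, firstMoment (A (τ i)) = - firstMoment (A i))) :
    ∑ i, ‖firstMoment (A i)‖ ^ 2 ≤ 1 / Real.pi ∧
      1 / Real.pi < 9 / (8 * Real.pi) := by
  have hπ := Real.pi_pos
  constructor
  · apply main hA τ
    rcases h with h | h
    · intro i
      rw [← firstMoment_neg (hA.measurable i)]
      unfold firstMoment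
      exact setIntegral_congr_set (h i)
    · exact h
  · rw [div_lt_div_iff₀ hπ (by positivity)]
    linarith

end Vale.Agent.Results.P226.AntipodalPartitions
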