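import Vale.Agent.P226.Attain
import Vale.Agent.P226.Final

/-!
# P226: the Gaussian propeller conjecture

For every measurable partition `(A_1, …, A_k)` of `ℝ^d` (up to `γ_d`-null sets)
`∑ |∫_{A_i} x dγ_d|² ≤ 9/(8π)`, and `9/(8π)` is attained whenever `d ≥ 2` and `k ≥ 3`.
-/

open MeasureTheory Set ProbabilityTheory

namespace Vale.Agent.Results.P226.Propeller

/-- The standard Gaussian probability measure `γ_d` on `ℝ^d`. -/
noncomputable abbrev gam (d : ℕ) : Measure (EuclideanSpace ℝ (Fin d)) :=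
  stdGaussian (EuclideanSpace ℝ (Fin d))

/-- The (unnormalized) Gaussian first moment `z(A) = ∫_A x dγ_d(x)`. -/
noncomputable def firstMoment {d : ℕ} (A : Set (EuclideanSpace ℝ (Fin d))) :
    EuclideanSpace ℝ (Fin d) :=
  ∫ x in A, x ∂(gam d)

/-- `A_1, …, A_k` is a measurable partition of `ℝ^d`, up to `γ_d`-null sets. -/
structure IsGaussianPartition {d k : ℕ} (A : Fin k → Set (EuclideanSpace ℝ (Fin d))) : Prop where
  measurable : ∀ i, MeasurableSet (A i)
  disjoint : ∀ i j, i ≠ j → gam d (A i ∩ A j) = 0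
  cover : gam d (⋃ i, A i)ᶜ = 0

/-- **Gaussian propeller conjecture (Khot–Naor).** Every measurable partition of `ℝ^d` into `k`
cells satisfies `∑ |z(A_i)|² ≤ 9/(8π)`; for `d ≥ 2` and `k ≥ 3` the value `9/(8π)` is attained, so
`M(d, k) = 9/(8π)`. -/
theorem result :
    (∀ (d k : ℕ) (A : Fin k → Set (EuclideanSpace ℝ (Fin d))), IsGaussianPartition A →
      ∑ i, ‖firstMoment (A i)‖ ^ 2 ≤ 9 / (8 * Real.pi)) ∧
    (∀ d k : ℕ, 2 ≤ d → 3 ≤ k →
      IsGreatest {s : ℝ | ∃ A : Fin k → Set (EuclideanSpace ℝ (Fin d)), IsGaussianPartition A ∧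
        s = ∑ i, ‖firstMoment (A i)‖ ^ 2} (9 / (8 * Real.pi))) := by
  have hmain : ∀ (d k : ℕ) (A : Fin k → Set (EuclideanSpace ℝ (Fin d))), IsGaussianPartition A →
      ∑ i, ‖firstMoment (A i)‖ ^ 2 ≤ 9 / (8 * Real.pi) := by
    intro d k A hA
    apply Vale.Agent.P226.GP.partition_of_PK (E := EuclideanSpace ℝ (Fin d)) (ι := Fin k)
    · intro hne
      have hk : 0 < k := by
        rw [← Fintype.card_fin k]
        exact Fintype.card_pos
      obtain ⟨m, rfl⟩ : ∃ m, k = m + 1 := ⟨k - 1, by omega⟩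
      rw [Fintype.card_fin]
      exact Vale.Agent.P226.GP.PK_final m
    · exact hA.measurable
    · exact fun i j hij => hA.disjoint i j hij
    · exact hA.cover
  refine ⟨hmain, ?_⟩
  intro d k hd hk
  constructor
  · obtain ⟨d', rfl⟩ : ∃ d', d = d' + 2 := ⟨d - 2, by omega⟩
    obtain ⟨m, rfl⟩ : ∃ m, k = 3 + m := ⟨k - 3, by omega⟩
    obtain ⟨A, h1, h2, h3, h4⟩ := Vale.Agent.P226.GP.exists_propeller
      (E := EuclideanSpace ℝ (Fin (d' + 2)))
      (u := EuclideanSpace.single 0 1) (v := EuclideanSpace.single 1 1)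
      (by simp) (by simp) (by simp [EuclideanSpace.inner_single_left]) m
    exact ⟨A, ⟨h1, h2, h3⟩, h4.symm⟩
  · rintro s ⟨A, hA, rfl⟩
    exact hmain _ _ A hA

end Vale.Agent.Results.P226.Propeller
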